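import Mathlib

/-!
# P095: unital homomorphisms of matrix algebras are inner, and paths of unitaries
-/

open scoped ComplexOrder Matrix Kronecker

noncomputable section

namespace Vale.Agent.P095.Uni.FromZ

/-- The matrix `a` repeated along the second coordinate of the relabelled index. -/
def rep {J A L : Type*} [DecidableEq L] (e : J ≃ A × L) (a : Matrix A A ℂ) : Matrix J J ℂ :=
  fun p q => if (e p).2 = (e q).2 then a (e p).1 (e q).1 else 0

section Rep

variable {J A L : Type*} [DecidableEq L] (e : J ≃ A × L)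

theorem rep_apply_apply (a : Matrix A A ℂ) (r s : A) (l : L) :
    rep e a (e.symm (r, l)) (e.symm (s, l)) = a r s := by
  simp [rep]

theorem rep_injective [Nonempty L] : Function.Injective (rep e) := fun a b h => by
  ext r s
  obtain ⟨l⟩ := ‹Nonempty L›
  rw [← rep_apply_apply e a r s l, h, rep_apply_apply]

theorem rep_add (a b : Matrix A A ℂ) : rep e (a + b) = rep e a + rep e b := by
  ext p q
  simp only [rep, Matrix.add_apply]
  split_ifs <;> simp

theorem rep_smul (c : ℂ) (a : Matrix A A ℂ) : rep e (c • a) = c • rep e a := by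
  ext p q
  simp only [rep, Matrix.smul_apply]
  split_ifs <;> simp

theorem rep_star (a : Matrix A A ℂ) : rep e aᴴ = (rep e a)ᴴ := by
  ext p q
  simp only [rep, Matrix.conjTranspose_apply, eq_comm (a := (e q).2)]
  split_ifs <;> simp

theorem rep_one [DecidableEq J] [DecidableEq A] : rep e (1 : Matrix A A ℂ) = 1 := by
  ext p q
  rcases eq_or_ne p q with rfl | h
  · simp [rep]
  · have : e p ≠ e q := e.injective.ne h
    simp only [rep, Matrix.one_apply, h, if_false]
    split_ifs with h2 h1
    · exact absurd (Prod.ext h1 h2) this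
    · rfl
    · rfl

theorem rep_mul [Fintype J] [Fintype A] [Fintype L] (a b : Matrix A A ℂ) :
    rep e (a * b) = rep e a * rep e b := by
  ext p q
  simp only [rep, Matrix.mul_apply]
  rw [← e.symm.sum_comp, Fintype.sum_prod_type_right, Finset.sum_eq_single (e p).2]
  · simp only [Equiv.apply_symm_apply]
    split_ifs <;> simp
  · intro l _ hl
    simp [Equiv.apply_symm_apply, hl.symm]
  · simp

end Rep

/-- A unital homomorphism of matrix algebras is conjugate to an amplification. -/
theorem exists_amplifier {A : Type*} [Fintype A] [DecidableEq A] {P c : ℕ} [NeZero P]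
    (hA : Fintype.card A = P * c) (π : Matrix (Fin P) (Fin P) ℂ → Matrix A A ℂ) (h1 : π 1 = 1)
    (hadd : ∀ x y, π (x + y) = π x + π y) (hsmul : ∀ (z : ℂ) x, π (z • x) = z • π x)
    (hmul : ∀ x y, π (x * y) = π x * π y) (hstar : ∀ x, π xᴴ = (π x)ᴴ) :
    ∃ u : Matrix A (Fin P × Fin c) ℂ, uᴴ * u = 1 ∧ u * uᴴ = 1 ∧
      ∀ X, π X * u = u * (X ⊗ₖ (1 : Matrix (Fin c) (Fin c) ℂ)) := by
  classical
  let E : Fin P → Fin P → Matrix (Fin P) (Fin P) ℂ := fun i j => Matrix.single i j 1
  have hEE : ∀ i j k l, E i j * E k l = if j = k then E i l else 0 := fun i j k l => by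
    split_ifs with h
    · subst h; simp [E]
    · simp [E, h]
  have hE1 : ∑ i, E i i = 1 := by
    ext a b
    simp [E, Matrix.sum_apply, Matrix.single_apply, Matrix.one_apply, ite_and]
  have h0 : π 0 = 0 := by
    have := hsmul 0 1
    simpa using this
  have hsum : ∀ (s : Finset (Fin P)) (f : Fin P → Matrix (Fin P) (Fin P) ℂ),
      π (∑ i ∈ s, f i) = ∑ i ∈ s, π (f i) := fun s f => by
    induction s using Finset.induction_on with
    | empty => simp [h0]
    | insert a s ha ih => simp [Finset.sum_insert ha, hadd, ih]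
  set P0 := π (E 0 0) with hP0
  have hP0s : P0.IsHermitian := by
    rw [Matrix.IsHermitian, hP0, ← hstar]
    simp [E]
  have hP0i : P0 * P0 = P0 := by rw [hP0, ← hmul, hEE]; simp
  set U : Matrix A A ℂ := (hP0s.eigenvectorUnitary : Matrix A A ℂ) with hU
  set d : A → ℂ := fun a => (hP0s.eigenvalues a : ℂ) with hd
  have hUU : Uᴴ * U = 1 := Matrix.mem_unitaryGroup_iff'.1 hP0s.eigenvectorUnitary.2
  have hUU' : U * Uᴴ = 1 := Matrix.mem_unitaryGroup_iff.1 hP0s.eigenvectorUnitary.2
  have hspec : P0 = U * Matrix.diagonal d * Uᴴ := by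
    conv_lhs => rw [hP0s.spectral_theorem]
    simp [Unitary.conjStarAlgAut_apply, Matrix.star_eq_conjTranspose, hU, hd, Function.comp_def]
  have hdd : ∀ a, d a * d a = d a := fun a => by
    have e : Uᴴ * P0 * U = Matrix.diagonal d := by
      rw [hspec]
      simp only [← mul_assoc]
      rw [hUU, one_mul, mul_assoc, hUU, mul_one]
    have e2 : Matrix.diagonal d * Matrix.diagonal d = Matrix.diagonal d := by
      rw [← e]
      calc Uᴴ * P0 * U * (Uᴴ * P0 * U) = Uᴴ * P0 * (U * Uᴴ) * P0 * U := by simp only [mul_assoc]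
        _ = _ := by rw [hUU', mul_one, mul_assoc Uᴴ P0 P0, hP0i]
    simpa [Matrix.diagonal_mul_diagonal] using congrFun (congrFun e2 a) a
  let T := {a : A // d a = 1}
  let W : Matrix A T ℂ := U.submatrix id Subtype.val
  have hWW : Wᴴ * W = 1 := by
    ext s t
    have := congrFun (congrFun hUU s.1) t.1
    rw [Matrix.mul_apply, Matrix.one_apply] at this ⊢
    simpa [W] using this.trans (if_congr Subtype.ext_iff.symm rfl rfl)
  have hWW' : W * Wᴴ = P0 := by
    ext r s
    rw [hspec, Matrix.mul_apply, Matrix.mul_apply]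
    simp only [Matrix.mul_diagonal, W, Matrix.conjTranspose_apply, Matrix.submatrix_apply, id]
    rw [Finset.sum_congr rfl (fun a _ => show U r a * d a * star (U s a) =
      if d a = 1 then U r a * star (U s a) else 0 by
        rcases mul_eq_zero.1 (show d a * (d a - 1) = 0 by rw [mul_sub, hdd, mul_one, sub_self]) with
          h | h
        · simp [h]
        · simp [sub_eq_zero.1 h])]
    rw [← Finset.sum_filter]
    exact (Finset.sum_subtype (p := fun a => d a = 1) _ (by simp) fun a => U r a * star (U s a)).symm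
  have hPW : P0 * W = W := by rw [← hWW', Matrix.mul_assoc, hWW, Matrix.mul_one]
  let u₀ : Matrix A (Fin P × T) ℂ := Matrix.of fun r x => (π (E x.1 0) * W) r x.2
  have hu : u₀ᴴ * u₀ = 1 := by
    ext ⟨i, s⟩ ⟨j, t⟩
    have key : (π (E i 0) * W)ᴴ * (π (E j 0) * W) = if i = j then 1 else 0 := by
      rw [Matrix.conjTranspose_mul, ← hstar, Matrix.mul_assoc, ← Matrix.mul_assoc (π _) (π _),
        ← hmul, show (E i 0)ᴴ = E 0 i by simp [E], hEE]
      split_ifs
      · rw [← hP0, hPW, hWW]
      · simp [h0]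
    have h := congrFun (congrFun key s) t
    rw [Matrix.mul_apply] at h ⊢
    simp only [u₀, Matrix.conjTranspose_apply, Matrix.of_apply] at h ⊢
    rw [h]
    by_cases hij : i = j
    · subst hij
      rw [if_pos rfl, Matrix.one_apply, Matrix.one_apply]
      exact if_congr (by simp) rfl rfl
    · rw [if_neg hij, Matrix.zero_apply, Matrix.one_apply, if_neg (by simp [hij])]
  have hu' : u₀ * u₀ᴴ = 1 := by
    have key : ∑ i, π (E i 0) * W * (π (E i 0) * W)ᴴ = 1 := by
      rw [← h1, ← hE1, hsum]
      refine Finset.sum_congr rfl fun i _ => ?_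
      rw [Matrix.conjTranspose_mul, ← hstar, Matrix.mul_assoc, ← Matrix.mul_assoc W, hWW',
        ← hmul, show (E i 0)ᴴ = E 0 i by simp [E], hEE, if_pos rfl, ← hmul, hEE, if_pos rfl]
    ext r s
    rw [← key]
    rw [Matrix.mul_apply, Fintype.sum_prod_type, Matrix.sum_apply]
    simp [Matrix.mul_apply, u₀, mul_comm]
  have hcardT : Fintype.card T = c := by
    have h := Matrix.trace_mul_comm u₀ u₀ᴴ
    rw [hu, hu', Matrix.trace_one, Matrix.trace_one] at h
    rw [Fintype.card_prod, Fintype.card_fin] at h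
    have h' : P * Fintype.card T = P * c := by rw [← hA]; exact_mod_cast h.symm
    exact Nat.eq_of_mul_eq_mul_left (NeZero.pos P) h'
  let eT : T ≃ Fin c := Fintype.equivFinOfCardEq hcardT
  let f : Fin P × Fin c ≃ Fin P × T := (Equiv.refl _).prodCongr eT.symm
  refine ⟨u₀.submatrix id f, ?_, ?_, fun X => ?_⟩
  · rw [Matrix.conjTranspose_submatrix, ← Equiv.coe_refl, Matrix.submatrix_mul_equiv, hu,
      Matrix.submatrix_one_equiv]
  · rw [Matrix.conjTranspose_submatrix, Matrix.submatrix_mul_equiv, hu', Matrix.submatrix_id_id]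
  · have hX : ∀ i, π X * π (E i 0) = ∑ k, X k i • π (E k 0) := fun i => by
      rw [← hmul]
      have e : X * E i 0 = ∑ k, X k i • E k 0 := by
        ext a b
        simp [E, Matrix.mul_apply, Matrix.sum_apply, Matrix.single_apply, ite_and]
      rw [e, hsum]
      exact Finset.sum_congr rfl fun k _ => hsmul _ _
    ext r ⟨i, s⟩
    have h : (π X * (π (E i 0) * W)) r (eT.symm s) =
        ∑ k, X k i * (π (E k 0) * W) r (eT.symm s) := by
      rw [← Matrix.mul_assoc, hX, Matrix.sum_mul, Matrix.sum_apply]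
      simp
    simp only [Matrix.mul_apply, Matrix.submatrix_apply, id, u₀, f, Matrix.of_apply] at h ⊢
    rw [Fintype.sum_prod_type]
    simp only [Equiv.prodCongr_apply, Prod.map, Equiv.refl_apply] at h ⊢
    rw [h]
    simp [Matrix.one_apply, mul_comm]

/-- A unitary which conjugates repeated matrices into repeated matrices agrees on them with a
repeated unitary. -/
theorem exists_rep_unitary {J A L : Type*} [Fintype J] [DecidableEq J] [Fintype A] [DecidableEq A]
    [Fintype L] [DecidableEq L] [Nonempty L] {P c : ℕ} [NeZero P] (e : J ≃ A × L)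
    (α : Fin P × Fin c ≃ A) (S : Matrix J J ℂ) (hS : Sᴴ * S = 1)
    (h : ∀ X : Matrix (Fin P) (Fin P) ℂ, ∃ a, S *
      rep e ((X ⊗ₖ (1 : Matrix (Fin c) (Fin c) ℂ)).submatrix α.symm α.symm) * Sᴴ = rep e a) :
    ∃ w : Matrix A A ℂ, wᴴ * w = 1 ∧ w * wᴴ = 1 ∧
      ∀ X : Matrix (Fin P) (Fin P) ℂ,
        Commute (Sᴴ * rep e w)
          (rep e ((X ⊗ₖ (1 : Matrix (Fin c) (Fin c) ℂ)).submatrix α.symm α.symm)) := by
  classical
  set ι : Matrix (Fin P) (Fin P) ℂ → Matrix J J ℂ := fun X =>
    rep e ((X ⊗ₖ (1 : Matrix (Fin c) (Fin c) ℂ)).submatrix α.symm α.symm) with hι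
  choose π hπ using h
  change ∀ X, S * ι X * Sᴴ = rep e (π X) at hπ
  have hSS : S * Sᴴ = 1 := mul_eq_one_comm.1 hS
  have hinj := rep_injective e
  have hι1 : ι 1 = 1 := by simp [hι, rep_one]
  have hιadd : ∀ X Y, ι (X + Y) = ι X + ι Y := fun X Y => by
    simp only [hι, Matrix.add_kronecker, ← rep_add]
    rfl
  have hιsmul : ∀ (z : ℂ) X, ι (z • X) = z • ι X := fun z X => by
    simp only [hι, Matrix.smul_kronecker, ← rep_smul]
    rfl
  have hιmul : ∀ X Y, ι (X * Y) = ι X * ι Y := fun X Y => by
    simp only [hι, ← rep_mul, Matrix.submatrix_mul_equiv, ← Matrix.mul_kronecker_mul, one_mul]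
  have hιstar : ∀ X, ι Xᴴ = (ι X)ᴴ := fun X => by
    simp only [hι, ← rep_star, Matrix.conjTranspose_submatrix, Matrix.conjTranspose_kronecker,
      Matrix.conjTranspose_one]
  have hA : Fintype.card A = P * c := by rw [← Fintype.card_congr α]; simp
  obtain ⟨u, hu, hu', hXu⟩ := exists_amplifier hA π
    (hinj (by rw [← hπ, hι1, mul_one, hSS, rep_one]))
    (fun X Y => hinj (by rw [rep_add, ← hπ, ← hπ, ← hπ, hιadd, mul_add, add_mul]))
    (fun z X => hinj (by rw [rep_smul, ← hπ, ← hπ, hιsmul, Matrix.mul_smul, Matrix.smul_mul]))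
    (fun X Y => hinj (by
      rw [rep_mul, ← hπ, ← hπ, ← hπ, hιmul]
      calc S * (ι X * ι Y) * Sᴴ = S * ι X * 1 * ι Y * Sᴴ := by simp only [mul_one, mul_assoc]
        _ = _ := by rw [← hS]; simp only [mul_assoc]))
    (fun X => hinj (by
      rw [rep_star, ← hπ, ← hπ, hιstar, Matrix.conjTranspose_mul, Matrix.conjTranspose_mul,
        Matrix.conjTranspose_conjTranspose, mul_assoc]))
  refine ⟨u.submatrix id α.symm, ?_, ?_, fun X => ?_⟩
  · rw [Matrix.conjTranspose_submatrix, ← Equiv.coe_refl, Matrix.submatrix_mul_equiv, hu,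
      Matrix.submatrix_one_equiv]
  · rw [Matrix.conjTranspose_submatrix, Matrix.submatrix_mul_equiv, hu', Matrix.submatrix_id_id]
  · show Sᴴ * rep e _ * ι X = ι X * (Sᴴ * rep e _)
    have h1 : π X * u.submatrix id α.symm = u.submatrix id α.symm *
        (X ⊗ₖ (1 : Matrix (Fin c) (Fin c) ℂ)).submatrix α.symm α.symm := by
      rw [Matrix.submatrix_mul_equiv, ← hXu]
      ext r s
      simp [Matrix.mul_apply]
    have h2 : rep e (π X) * rep e (u.submatrix id α.symm) =
        rep e (u.submatrix id α.symm) * ι X := by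
      rw [← rep_mul, h1, rep_mul]
    calc Sᴴ * rep e (u.submatrix id α.symm) * ι X
        = Sᴴ * (rep e (π X) * rep e (u.submatrix id α.symm)) := by rw [h2, mul_assoc]
      _ = Sᴴ * S * ι X * Sᴴ * rep e (u.submatrix id α.symm) := by
        rw [← hπ]; simp only [mul_assoc]
      _ = _ := by rw [hS, one_mul, mul_assoc]

/-- A unitary matrix is joined to one inside the commutant of anything commuting with it. -/
theorem exists_path_commuting {J : Type*} [Fintype J] [DecidableEq J] (u : CStarMatrix J J ℂ)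
    (hu : u ∈ unitary (CStarMatrix J J ℂ)) :
    ∃ γ : C(ℝ, CStarMatrix J J ℂ), (∀ t, γ t ∈ unitary _) ∧ γ 0 = 1 ∧ γ 1 = u ∧
      ∀ x, Commute u x → ∀ t, Commute (γ t) x := by
  have hfin : (spectrum ℂ u).Finite := by
    have := Matrix.finite_spectrum (CStarMatrix.ofMatrix.symm u)
    exact this
  obtain ⟨θ, hθ⟩ : ∃ θ : ℝ, ∀ z ∈ spectrum ℂ u, Complex.exp (θ * Complex.I) * z ∈ Complex.slitPlane := by
    have hbad : {θ : ℝ | θ ∈ Set.Icc (0 : ℝ) 1 ∧
        ∃ z ∈ spectrum ℂ u, Complex.exp (θ * Complex.I) * z = -1}.Finite := by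
      refine Set.Finite.of_injOn (f := fun θ : ℝ => -(Complex.exp (θ * Complex.I))⁻¹)
        (fun θ hθ => ?_) (fun a ha b hb hab => ?_) hfin
      · obtain ⟨-, z, hz, hzz⟩ := hθ
        have : -(Complex.exp (θ * Complex.I))⁻¹ = z := by
          have h0 := Complex.exp_ne_zero (θ * Complex.I)
          field_simp
          linear_combination -hzz
        rwa [← this] at hz
      · simp only [neg_inj, inv_inj, Complex.exp_eq_exp_iff_exists_int] at hab
        obtain ⟨m, hm⟩ := hab
        have him := congrArg Complex.im hm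
        simp at him
        have hπ := Real.two_le_pi
        rcases eq_or_ne m 0 with rfl | h0
        · simpa using him
        · have : (1 : ℝ) ≤ |(m : ℝ)| := by exact_mod_cast Int.one_le_abs h0
          have h1 : |(m : ℝ)| * (2 * Real.pi) ≤ 1 := by
            rw [← abs_of_pos (show (0 : ℝ) < 2 * Real.pi by positivity), ← abs_mul]
            exact abs_le.2 ⟨by linarith [ha.1.1, ha.1.2, hb.1.1, hb.1.2],
              by linarith [ha.1.1, ha.1.2, hb.1.1, hb.1.2]⟩
          nlinarith
    obtain ⟨θ, hθ, hgood⟩ := ((Set.Icc_infinite (zero_lt_one (α := ℝ))).sdiff hbad).nonempty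
    refine ⟨θ, fun z hz => ?_⟩
    have hn : ‖Complex.exp (θ * Complex.I) * z‖ = 1 := by
      rw [norm_mul, Complex.norm_exp_ofReal_mul_I, spectrum.norm_eq_one_of_unitary hu hz, one_mul]
    by_contra hc
    rw [Complex.mem_slitPlane_iff] at hc
    push Not at hc
    refine hgood ⟨hθ, z, hz, ?_⟩
    have hsq := Complex.sq_norm (Complex.exp (θ * Complex.I) * z)
    rw [hn, Complex.normSq_apply, hc.2] at hsq
    exact Complex.ext (by rw [Complex.neg_re, Complex.one_re]; nlinarith [hc.1]) (by simpa using hc.2)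
  set s : ℝ → ℂ := fun r => Complex.exp (r * θ * Complex.I) with hs
  have hs1 : ∀ r, starRingEnd ℂ (s r) * s r = 1 := fun r => by
    simp [hs, ← Complex.exp_conj, ← Complex.exp_add]
  have hsu : ∀ r, s r • (1 : CStarMatrix J J ℂ) ∈ unitary (CStarMatrix J J ℂ) := fun r => by
    have h2 := hs1 r
    constructor <;> simp [smul_smul, h2, mul_comm (s r)]
  set v : unitary (CStarMatrix J J ℂ) := ⟨s 1 • 1 * u, mul_mem (hsu 1) hu⟩ with hv
  have hspec : spectrum ℂ (v : CStarMatrix J J ℂ) ⊆ Complex.slitPlane := by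
    have h0 : s 1 ≠ 0 := Complex.exp_ne_zero _
    intro z hz
    simp only [hv, smul_one_mul] at hz
    rw [show s 1 • u = (Units.mk0 (s 1) h0) • u from rfl, spectrum.unit_smul_eq_smul] at hz
    obtain ⟨w, hw, rfl⟩ := hz
    simpa [hs] using hθ w hw
  have hlt : ‖((v : CStarMatrix J J ℂ) - 1)‖ < 2 :=
    (Unitary.spectrum_subset_slitPlane_iff_norm_lt_two v.2).1 hspec
  set x := Unitary.argSelfAdjoint v with hx
  refine ⟨⟨fun t => s (-t) • (selfAdjoint.expUnitary (t • x) : CStarMatrix J J ℂ), ?_⟩,
    fun t => ?_, ?_, ?_, fun y hy t => ?_⟩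
  · exact (Continuous.smul (f := fun t => s (-t)) (by simp only [hs]; fun_prop)
      (continuous_subtype_val.comp
      (selfAdjoint.continuous_expUnitary.comp (f := fun t : ℝ => t • x)
        (continuous_induced_rng.2 (by simp only [Function.comp_def, selfAdjoint.val_smul]; fun_prop)))))
  · simp only [ContinuousMap.coe_mk]
    rw [← smul_one_mul (s (-t))]
    exact mul_mem (hsu _) (selfAdjoint.expUnitary (t • x)).2
  · simp [hs]
  · simp only [ContinuousMap.coe_mk, one_smul, hx]
    rw [expUnitary_argSelfAdjoint hlt]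
    simp only [hv, smul_one_mul, smul_smul]
    rw [show s (-1) * s 1 = 1 by simp [hs, ← Complex.exp_add], one_smul]
  · have hy' : Commute (star u) y := by
      calc star u * y = star u * (y * u) * star u := by
            rw [mul_assoc, mul_assoc y, Unitary.mul_star_self_of_mem hu, mul_one]
        _ = _ := by
            rw [← hy.eq, ← mul_assoc, Unitary.star_mul_self_of_mem hu, one_mul]
    have hvy : Commute (v : CStarMatrix J J ℂ) y := by
      simp only [hv, smul_one_mul]; exact hy.smul_left _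
    have hvy' : Commute (star (v : CStarMatrix J J ℂ)) y := by
      simp only [hv, smul_one_mul, star_smul]; exact hy'.smul_left _
    refine Commute.smul_left ?_ _
    rw [selfAdjoint.expUnitary_coe]
    refine Commute.exp_left ?_
    refine Commute.smul_left ?_ _
    rw [selfAdjoint.val_smul, hx, Unitary.argSelfAdjoint_coe]
    exact (Commute.cfc hvy hvy' _).smul_left _

end Vale.Agent.P095.Uni.FromZ
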