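import Vale.Agent.P095.Uni.FromZ.MatrixHom
import Vale.Agent.P101.JiangSu.System

/-!
# P095: on nearly constant data a step of the Jiang-Su system is a tensor step
-/

open scoped ComplexOrder Matrix Kronecker
open unitInterval
open Vale.Agent.P101 Vale.Agent.P101.JiangSu
open Vale.Agent.P101.Drop (dropAlg IsLeft IsRight)

set_option maxSynthPendingDepth 3

noncomputable section

namespace Vale.Agent.P095.Uni.FromZ

/-- The fibre index of a stage. -/
abbrev Fib (j : ℕ) : Type := Fin (p j) × Fin (q j)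

/-- The matrices over a stage. -/
abbrev MatJ (j : ℕ) : Type := CStarMatrix (Fib j) (Fib j) ℂ

/-- The first factor of the block index. -/
abbrev a₀ (j : ℕ) : ℕ := (Dims.seq j).k₀

/-- The second factor of the block index. -/
abbrev a₁ (j : ℕ) : ℕ := (Dims.seq j).k₁

/-- The block index split into two. -/
def split (j : ℕ) : Fin (Dims.seq j).k ≃ Fin (a₀ j) × Fin (a₁ j) := finProdFinEquiv.symm

/-- The first coordinate of the next stage. -/
def fstEquiv (j : ℕ) : Fin (p j) × Fin (a₀ j) ≃ Fin (p (j + 1)) :=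
  finProdFinEquiv.trans (finCongr ((mul_comm _ _).trans (Dims.seq j).next_P.symm))

/-- The second coordinate of the next stage. -/
def sndEquiv (j : ℕ) : Fin (q j) × Fin (a₁ j) ≃ Fin (q (j + 1)) :=
  finProdFinEquiv.trans (finCongr ((mul_comm _ _).trans (Dims.seq j).next_Q.symm))

/-- The tensor relabelling. -/
def tenEquiv (j : ℕ) : Fib j × Fin (Dims.seq j).k ≃ Fib (j + 1) :=
  ((Equiv.refl (Fib j)).prodCongr (split j)).trans
    ((Equiv.prodProdProdComm _ _ _ _).trans ((fstEquiv j).prodCongr (sndEquiv j)))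

/-- `F ↦ F ⊗ 1` into the next stage. -/
def cst (j : ℕ) : MatJ j →⋆ₐ[ℂ] MatJ (j + 1) where
  toFun F := blockHom (tenEquiv j) fun _ => F
  map_one' := map_one (blockHom (tenEquiv j))
  map_mul' F G := map_mul (blockHom (tenEquiv j)) (fun _ => F) (fun _ => G)
  map_zero' := map_zero (blockHom (tenEquiv j))
  map_add' F G := map_add (blockHom (tenEquiv j)) (fun _ => F) (fun _ => G)
  commutes' r := AlgHomClass.commutes (blockHom (tenEquiv j)) r
  map_star' F := map_star (blockHom (tenEquiv j)) (fun _ => F)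

theorem norm_cst_le (j : ℕ) (F : MatJ j) : ‖cst j F‖ ≤ ‖F‖ :=
  norm_blockHom_le _ (norm_nonneg F) fun _ => le_rfl

theorem cst_apply_apply (j : ℕ) (F : MatJ j) (κ κ' : Fib j) (c c' : Fin (Dims.seq j).k) :
    cst j F (tenEquiv j (κ, c)) (tenEquiv j (κ', c')) = if c = c' then F κ κ' else 0 := by
  show blockHom (tenEquiv j) (fun _ => F) _ _ = _
  simp [blockHom_apply]

/-- `X ⊗ 1` in a fibre. -/
def leftM (j : ℕ) (X : Matrix (Fin (p j)) (Fin (p j)) ℂ) : MatJ j :=
  CStarMatrix.ofMatrix (rep (Equiv.refl (Fib j)) X)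

/-- `1 ⊗ Y` in a fibre. -/
def rightM (j : ℕ) (Y : Matrix (Fin (q j)) (Fin (q j)) ℂ) : MatJ j :=
  CStarMatrix.ofMatrix (rep (Equiv.prodComm (Fin (p j)) (Fin (q j))) Y)

theorem cst_leftM (j : ℕ) (X : Matrix (Fin (p j)) (Fin (p j)) ℂ) :
    cst j (leftM j X) = CStarMatrix.ofMatrix (rep (Equiv.refl (Fib (j + 1)))
      ((X ⊗ₖ (1 : Matrix (Fin (a₀ j)) (Fin (a₀ j)) ℂ)).submatrix (fstEquiv j).symm
        (fstEquiv j).symm)) := by
  refine CStarMatrix.ext fun x y => ?_
  obtain ⟨⟨⟨i, l⟩, c⟩, rfl⟩ := (tenEquiv j).surjective x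
  obtain ⟨⟨⟨i', l'⟩, c'⟩, rfl⟩ := (tenEquiv j).surjective y
  rw [cst_apply_apply]
  have hc : c = c' ↔ (split j c).1 = (split j c').1 ∧ (split j c).2 = (split j c').2 := by
    rw [← Prod.ext_iff, EmbeddingLike.apply_eq_iff_eq]
  simp only [leftM, CStarMatrix.ofMatrix_apply, rep, tenEquiv, Equiv.trans_apply,
    Equiv.prodCongr_apply, Prod.map, Equiv.refl_apply, Equiv.prodProdProdComm_apply,
    EmbeddingLike.apply_eq_iff_eq, Matrix.submatrix_apply, Equiv.symm_apply_apply,
    Matrix.kroneckerMap_apply, Matrix.one_apply, hc, Prod.mk.injEq]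
  split_ifs <;> simp_all

theorem cst_rightM (j : ℕ) (Y : Matrix (Fin (q j)) (Fin (q j)) ℂ) :
    cst j (rightM j Y) = CStarMatrix.ofMatrix (rep (Equiv.prodComm (Fin (p (j + 1))) (Fin (q (j + 1))))
      ((Y ⊗ₖ (1 : Matrix (Fin (a₁ j)) (Fin (a₁ j)) ℂ)).submatrix (sndEquiv j).symm
        (sndEquiv j).symm)) := by
  refine CStarMatrix.ext fun x y => ?_
  obtain ⟨⟨⟨i, l⟩, c⟩, rfl⟩ := (tenEquiv j).surjective x
  obtain ⟨⟨⟨i', l'⟩, c'⟩, rfl⟩ := (tenEquiv j).surjective y
  rw [cst_apply_apply]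
  have hc : c = c' ↔ (split j c).1 = (split j c').1 ∧ (split j c).2 = (split j c').2 := by
    rw [← Prod.ext_iff, EmbeddingLike.apply_eq_iff_eq]
  simp only [rightM, CStarMatrix.ofMatrix_apply, rep, tenEquiv, Equiv.trans_apply,
    Equiv.prodCongr_apply, Prod.map, Equiv.refl_apply, Equiv.prodProdProdComm_apply,
    Equiv.prodComm_apply, Prod.swap_prod_mk, EmbeddingLike.apply_eq_iff_eq,
    Matrix.submatrix_apply, Equiv.symm_apply_apply, Matrix.kroneckerMap_apply, Matrix.one_apply, hc,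
    Prod.mk.injEq]
  split_ifs <;> simp_all

theorem isLeft_iff_rep {P Q : ℕ} (y : CStarMatrix (Fin P × Fin Q) (Fin P × Fin Q) ℂ) :
    IsLeft y ↔ ∃ a, y = CStarMatrix.ofMatrix (rep (Equiv.refl _) a) :=
  ⟨fun ⟨x, hx⟩ => ⟨Matrix.of x, CStarMatrix.ext fun a b => hx a b⟩,
    fun ⟨x, hx⟩ => ⟨x, fun a b => by rw [hx]; rfl⟩⟩

theorem isRight_iff_rep {P Q : ℕ} (y : CStarMatrix (Fin P × Fin Q) (Fin P × Fin Q) ℂ) :
    IsRight y ↔ ∃ a, y = CStarMatrix.ofMatrix (rep (Equiv.prodComm _ _) a) :=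
  ⟨fun ⟨x, hx⟩ => ⟨Matrix.of x, CStarMatrix.ext fun a b => hx a b⟩,
    fun ⟨x, hx⟩ => ⟨x, fun a b => by rw [hx]; rfl⟩⟩

/-- The endpoint unitary, in the language of C⋆-matrices. -/
theorem exists_end {J A L : Type*} [Fintype J] [DecidableEq J] [Fintype A] [DecidableEq A]
    [Fintype L] [DecidableEq L] [Nonempty L] {P c : ℕ} [NeZero P] (e : J ≃ A × L)
    (α : Fin P × Fin c ≃ A) (S : CStarMatrix J J ℂ) (hS : S ∈ unitary _)
    (h : ∀ X : Matrix (Fin P) (Fin P) ℂ, ∃ a, S * CStarMatrix.ofMatrix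
      (rep e ((X ⊗ₖ (1 : Matrix (Fin c) (Fin c) ℂ)).submatrix α.symm α.symm)) * star S =
        CStarMatrix.ofMatrix (rep e a)) :
    ∃ w : Matrix A A ℂ, CStarMatrix.ofMatrix (rep e w) ∈ unitary (CStarMatrix J J ℂ) ∧
      ∀ X : Matrix (Fin P) (Fin P) ℂ, Commute (star S * CStarMatrix.ofMatrix (rep e w))
        (CStarMatrix.ofMatrix
          (rep e ((X ⊗ₖ (1 : Matrix (Fin c) (Fin c) ℂ)).submatrix α.symm α.symm))) := by
  obtain ⟨w, hw, hw', hX⟩ := exists_rep_unitary e α (CStarMatrix.ofMatrix.symm S)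
    (congrArg CStarMatrix.ofMatrix.symm (Unitary.star_mul_self_of_mem hS))
    fun X => (h X).imp fun a ha => congrArg CStarMatrix.ofMatrix.symm ha
  refine ⟨w, ⟨?_, ?_⟩, fun X => congrArg CStarMatrix.ofMatrix (hX X).eq⟩
  · refine congrArg CStarMatrix.ofMatrix ?_
    show (rep e w)ᴴ * rep e w = 1
    rw [← rep_star, ← rep_mul, hw, rep_one]
  · refine congrArg CStarMatrix.ofMatrix ?_
    show rep e w * (rep e w)ᴴ = 1
    rw [← rep_star, ← rep_mul, hw', rep_one]

theorem norm_conj_sub {B : Type*} [CStarAlgebra B] {a : B} (ha : a ∈ unitary B) (x y : B) :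
    ‖a * x * star a - a * y * star a‖ = ‖x - y‖ := by
  rw [← sub_mul, ← mul_sub, CStarRing.norm_mul_mem_unitary _ (Unitary.star_mem ha),
    CStarRing.norm_mem_unitary_mul _ ha]

/-- The permutation matrix between the two relabellings. -/
def permM {J : Type*} [Fintype J] [DecidableEq J] (sg : Equiv.Perm J) : CStarMatrix J J ℂ :=
  CStarMatrix.ofMatrix ((1 : Matrix J J ℂ).submatrix sg id)

theorem permM_conj {J : Type*} [Fintype J] [DecidableEq J] (sg : Equiv.Perm J)
    (M : CStarMatrix J J ℂ) (x y : J) :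
    (permM sg * M * star (permM sg)) x y = M (sg x) (sg y) := by
  change ∑ c, (∑ b, (if sg x = b then (1 : ℂ) else 0) * M b c) *
    star (if sg y = c then (1 : ℂ) else 0) = _
  simp [apply_ite star]

theorem permM_mem {J : Type*} [Fintype J] [DecidableEq J] (sg : Equiv.Perm J) :
    permM sg ∈ unitary (CStarMatrix J J ℂ) := by
  have h : permM sg * star (permM sg) = 1 := by
    refine CStarMatrix.ext fun x y => ?_
    have := permM_conj sg 1 x y
    rw [mul_one] at this
    rw [this, CStarMatrix.one_apply, CStarMatrix.one_apply]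
    simp
  exact ⟨congrArg CStarMatrix.ofMatrix ((mul_eq_one_comm (M := Matrix J J ℂ)).1
    (congrArg CStarMatrix.ofMatrix.symm h)), h⟩

/-- On nearly constant data a step is conjugate, inside the next stage, to `F ↦ F ⊗ 1`. -/
theorem exists_step_conj (j : ℕ) (v : Amb j) (hv : ∀ t, v t ∈ unitary _) (hv0 : v 0 = 1)
    (G : Set (dropAlg (p j) (q j) ℂ)) (ε : ℝ)
    (h : ∀ F ∈ G, ∀ t, ‖(F : Amb j) t - v t * (F : Amb j) 0 * star (v t)‖ ≤ ε) :
    ∃ W : Amb (j + 1), (∀ t, W t ∈ unitary _) ∧ IsLeft (W 0) ∧ IsRight (W 1) ∧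
      ∀ F ∈ G, ∀ t, ‖(conn j F : Amb (j + 1)) t - W t * cst j ((F : Amb j) t) * star (W t)‖ ≤
        4 * ε := by
  classical
  set D := connDiag j with hD
  have hxi : D.xi = (Dims.seq j).xi := connDiag_xi j
  set sg : Equiv.Perm (Fib (j + 1)) := D.e.symm.trans (tenEquiv j)
  set Pm := permM sg
  have hPm : ∀ X : MatJ j, blockHom D.e (fun _ => X) = Pm * cst j X * star Pm := fun X => by
    refine CStarMatrix.ext fun x y => ?_
    rw [permM_conj]
    show blockHom D.e (fun _ => X) x y = blockHom (tenEquiv j) (fun _ => X) _ _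
    simp [blockHom_apply, sg]
  set A : Amb (j + 1) := ⟨fun t => D.U t * blockHom D.e (fun i => v (D.xi i t)) * Pm,
    (D.U.continuous.mul ((continuous_blockHom D.e).comp
      (continuous_pi fun i => v.continuous.comp (D.xi i).continuous))).mul continuous_const⟩
  have hAu : ∀ t, A t ∈ unitary _ := fun t => mul_mem (mul_mem (D.unitary t)
    (Unitary.map_mem (blockHom D.e) (Unitary.mem_iff.2
      ⟨funext fun i => Unitary.star_mul_self_of_mem (hv _),
        funext fun i => Unitary.mul_star_self_of_mem (hv _)⟩))) (permM_mem sg)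
  have hA : ∀ t X, A t * cst j X * star (A t) =
      D.U t * blockHom D.e (fun i => v (D.xi i t) * X * star (v (D.xi i t))) * star (D.U t) := by
    intro t X
    show D.U t * blockHom D.e _ * Pm * cst j X * star (D.U t * blockHom D.e _ * Pm) = _
    rw [show (fun i => v (D.xi i t) * X * star (v (D.xi i t))) =
      (fun i => v (D.xi i t)) * (fun _ => X) * star fun i => v (D.xi i t) from rfl,
      map_mul, map_mul, map_star, hPm]
    simp only [star_mul, mul_assoc]
  set B : Amb (j + 1) := ⟨fun t => cst j (v t),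
    (continuous_blockHom (tenEquiv j)).comp (continuous_pi fun _ => v.continuous)⟩
  have hBu : ∀ t, B t ∈ unitary _ := fun t => Unitary.map_mem (cst j) (hv t)
  have hB0 : B 0 = 1 := (congrArg (cst j) hv0).trans (map_one (cst j))
  have hend0 : ∀ X, ∃ a, A 0 * cst j (leftM j X) * star (A 0) =
      CStarMatrix.ofMatrix (rep (Equiv.refl (Fib (j + 1))) a) := by
    intro X
    let f : dropAlg (p j) (q j) ℂ :=
      ⟨⟨fun t => ((min 1 (2 * (1 - (t : ℝ))) : ℝ) : ℂ) • (v t * leftM j X * star (v t)),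
        (by fun_prop : Continuous fun t : I => ((min 1 (2 * (1 - (t : ℝ))) : ℝ) : ℂ)).smul
          ((v.continuous.mul continuous_const).mul v.continuous.star)⟩,
        (isLeft_iff_rep _).2 ⟨X, by
          show ((min 1 (2 * (1 - ((0 : I) : ℝ))) : ℝ) : ℂ) • (v 0 * leftM j X * star (v 0)) = _
          rw [show min 1 (2 * (1 - ((0 : I) : ℝ))) = 1 by norm_num, Complex.ofReal_one, hv0,
            star_one, one_mul, mul_one]
          exact one_smul ℂ _⟩,
        ⟨0, fun x y => by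
          show (((min 1 (2 * (1 - ((1 : I) : ℝ))) : ℝ) : ℂ) •
            (v 1 * leftM j X * star (v 1)) : MatJ j) x y = _
          norm_num⟩⟩
    obtain ⟨a, ha⟩ := (isLeft_iff_rep _).1 (conn j f).2.1
    refine ⟨a, ?_⟩
    rw [← ha, hA, coe_conn, Diag.hom_apply]
    congr 2
    refine congrArg (blockHom D.e) (funext fun i => ?_)
    show _ = ((min 1 (2 * (1 - ((D.xi i 0 : I) : ℝ))) : ℝ) : ℂ) •
      (v (D.xi i 0) * leftM j X * star (v (D.xi i 0)))
    rw [show min 1 (2 * (1 - ((D.xi i 0 : I) : ℝ))) = 1 by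
      rw [hxi, Dims.xi_zero]; split_ifs <;> norm_num [Dims.half]]
    exact (one_smul ℂ _).symm.trans (by norm_num)
  have hend1 : ∀ Y, ∃ a, A 1 * star (B 1) * cst j (rightM j Y) * star (A 1 * star (B 1)) =
      CStarMatrix.ofMatrix (rep (Equiv.prodComm (Fin (p (j + 1))) (Fin (q (j + 1)))) a) := by
    intro Y
    let f : dropAlg (p j) (q j) ℂ :=
      ⟨⟨fun t => ((min 1 (2 * (t : ℝ)) : ℝ) : ℂ) •
          (v t * (star (v 1) * rightM j Y * v 1) * star (v t)),
        (by fun_prop : Continuous fun t : I => ((min 1 (2 * (t : ℝ)) : ℝ) : ℂ)).smul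
          ((v.continuous.mul continuous_const).mul v.continuous.star)⟩,
        ⟨0, fun x y => by
          show (((min 1 (2 * ((0 : I) : ℝ)) : ℝ) : ℂ) •
            (v 0 * (star (v 1) * rightM j Y * v 1) * star (v 0)) : MatJ j) x y = _
          norm_num⟩,
        (isRight_iff_rep _).2 ⟨Y, by
          show ((min 1 (2 * ((1 : I) : ℝ)) : ℝ) : ℂ) •
            (v 1 * (star (v 1) * rightM j Y * v 1) * star (v 1)) = _
          rw [show min 1 (2 * ((1 : I) : ℝ)) = 1 by norm_num, Complex.ofReal_one,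
            mul_assoc (v 1), mul_assoc _ (v 1) (star (v 1)), Unitary.mul_star_self_of_mem (hv 1),
            mul_one, ← mul_assoc, Unitary.mul_star_self_of_mem (hv 1), one_mul]
          exact one_smul ℂ _⟩⟩
    obtain ⟨a, ha⟩ := (isRight_iff_rep _).1 (conn j f).2.2
    refine ⟨a, ?_⟩
    have e : A 1 * star (B 1) * cst j (rightM j Y) * star (A 1 * star (B 1)) =
        A 1 * cst j (star (v 1) * rightM j Y * v 1) * star (A 1) := by
      show A 1 * star (cst j (v 1)) * _ * star (A 1 * star (cst j (v 1))) = _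
      simp only [map_mul, map_star, star_mul, star_star, mul_assoc]
    rw [← ha, e, hA, coe_conn, Diag.hom_apply]
    congr 2
    refine congrArg (blockHom D.e) (funext fun i => ?_)
    show _ = ((min 1 (2 * ((D.xi i 1 : I) : ℝ)) : ℝ) : ℂ) •
      (v (D.xi i 1) * (star (v 1) * rightM j Y * v 1) * star (v (D.xi i 1)))
    rw [show min 1 (2 * ((D.xi i 1 : I) : ℝ)) = 1 by
      rw [hxi, Dims.xi_one]; split_ifs <;> norm_num [Dims.half]]
    exact (one_smul ℂ _).symm.trans (by norm_num)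
  simp only [cst_leftM] at hend0
  simp only [cst_rightM] at hend1
  obtain ⟨w₀, hw₀, hc₀⟩ := exists_end _ (fstEquiv j) (A 0) (hAu 0) hend0
  obtain ⟨w₁, hw₁, hc₁⟩ :=
    exists_end _ (sndEquiv j) (A 1 * star (B 1)) (mul_mem (hAu 1) (Unitary.star_mem (hBu 1))) hend1
  set u₀ : MatJ (j + 1) := CStarMatrix.ofMatrix (rep (Equiv.refl (Fib (j + 1))) w₀) with hu₀
  set u₁ : MatJ (j + 1) := CStarMatrix.ofMatrix
    (rep (Equiv.prodComm (Fin (p (j + 1))) (Fin (q (j + 1)))) w₁) with hu₁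
  obtain ⟨γ₀, hγ₀u, hγ₀0, hγ₀1, hγ₀c⟩ := exists_path_commuting (star (A 0) * u₀)
    (mul_mem (Unitary.star_mem (hAu 0)) hw₀)
  obtain ⟨γ₁, hγ₁u, hγ₁0, hγ₁1, hγ₁c⟩ := exists_path_commuting (star (A 1 * star (B 1)) * u₁)
    (mul_mem (Unitary.star_mem (mul_mem (hAu 1) (Unitary.star_mem (hBu 1)))) hw₁)
  set T : Amb (j + 1) := ⟨fun t => star (B 1) * γ₁ (max 0 (2 * (t : ℝ) - 1)) * B 1,
    (continuous_const.mul (γ₁.continuous.comp (by fun_prop))).mul continuous_const⟩
  set Γ : Amb (j + 1) := ⟨fun t => γ₀ (max 0 (1 - 2 * (t : ℝ))) * T t,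
    (γ₀.continuous.comp (by fun_prop)).mul T.continuous⟩
  have hTu : ∀ t, T t ∈ unitary _ := fun t =>
    mul_mem (mul_mem (Unitary.star_mem (hBu 1)) (hγ₁u _)) (hBu 1)
  have hΓu : ∀ t, Γ t ∈ unitary _ := fun t => mul_mem (hγ₀u _) (hTu t)
  refine ⟨A * Γ * star B, fun t => ?_, ?_, ?_, fun F hF t => ?_⟩
  · exact mul_mem (mul_mem (hAu t) (hΓu t)) (Unitary.star_mem (hBu t))
  · refine (isLeft_iff_rep _).2 ⟨w₀, ?_⟩
    show A 0 * (γ₀ (max 0 (1 - 2 * ((0 : I) : ℝ))) *
      (star (B 1) * γ₁ (max 0 (2 * ((0 : I) : ℝ) - 1)) * B 1)) * star (B 0) = u₀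
    norm_num [hγ₁0, hγ₀1, hB0, Unitary.star_mul_self_of_mem (hBu 1)]
    rw [← mul_assoc, Unitary.mul_star_self_of_mem (hAu 0), one_mul]
  · refine (isRight_iff_rep _).2 ⟨w₁, ?_⟩
    show A 1 * (γ₀ (max 0 (1 - 2 * ((1 : I) : ℝ))) *
      (star (B 1) * γ₁ (max 0 (2 * ((1 : I) : ℝ) - 1)) * B 1)) * star (B 1) = u₁
    norm_num [hγ₀0, hγ₁1]
    simp only [← mul_assoc]
    rw [mul_assoc _ (B 1) (star (B 1)), Unitary.mul_star_self_of_mem (hBu 1), mul_one]
    have hS := Unitary.mul_star_self_of_mem (mul_mem (hAu 1) (Unitary.star_mem (hBu 1)))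
    rw [star_mul, star_star] at hS
    simp only [← mul_assoc] at hS
    rw [hS, one_mul]
  · obtain ⟨X, hX⟩ := (isLeft_iff_rep _).1 F.2.1
    obtain ⟨Y, hY⟩ := (isRight_iff_rep _).1 F.2.2
    set C₀ := cst j ((F : Amb j) 0) with hC₀
    set C₁ := cst j ((F : Amb j) 1)
    set Y' := star (B 1) * C₁ * B 1
    have hc0' : ∀ r, Commute (γ₀ r) C₀ := fun r => by
      rw [hC₀, hX]
      exact (cst_leftM j X).symm ▸ hγ₀c _ (hc₀ X) r
    have hc1' : ∀ r, Commute (γ₁ r) C₁ := fun r => by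
      show Commute _ (cst j ((F : Amb j) 1))
      rw [hY]
      exact (cst_rightM j Y).symm ▸ hγ₁c _ (hc₁ Y) r
    have hY' : ‖Y' - C₀‖ ≤ ε := by
      have e : Y' - C₀ = star (B 1) * C₁ * B 1 - star (B 1) * (B 1 * C₀ * star (B 1)) * B 1 := by
        simp only [Y', mul_assoc, Unitary.star_mul_self_of_mem (hBu 1), mul_one]
        rw [← mul_assoc (star (B 1)) (B 1) C₀, Unitary.star_mul_self_of_mem (hBu 1), one_mul]
      rw [e, show B 1 * C₀ * star (B 1) = cst j (v 1 * (F : Amb j) 0 * star (v 1)) by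
        show cst j (v 1) * cst j ((F : Amb j) 0) * star (cst j (v 1)) = _
        rw [map_mul, map_mul, map_star]]
      have := norm_conj_sub (Unitary.star_mem (hBu 1)) C₁
        (cst j (v 1 * (F : Amb j) 0 * star (v 1)))
      rw [star_star] at this
      rw [this, show C₁ = cst j ((F : Amb j) 1) from rfl, ← map_sub]
      exact (norm_cst_le j _).trans (h F hF 1)
    have hTY : T t * Y' * star (T t) = Y' := by
      have hcomm : T t * Y' = Y' * T t := by
        show star (B 1) * γ₁ _ * B 1 * (star (B 1) * C₁ * B 1) =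
          star (B 1) * C₁ * B 1 * (star (B 1) * γ₁ _ * B 1)
        simp only [mul_assoc]
        rw [← mul_assoc (B 1) (star (B 1)), ← mul_assoc (B 1) (star (B 1)),
          Unitary.mul_star_self_of_mem (hBu 1), one_mul, one_mul, ← mul_assoc (γ₁ _) C₁,
          (hc1' _).eq, mul_assoc]
      rw [hcomm, mul_assoc, Unitary.mul_star_self_of_mem (hTu t), mul_one]
    have hT : ‖T t * C₀ * star (T t) - C₀‖ ≤ 2 * ε := by
      refine (norm_sub_le_norm_sub_add_norm_sub _ (T t * Y' * star (T t)) _).trans ?_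
      rw [norm_conj_sub (hTu t), hTY, norm_sub_rev C₀ Y']
      linarith
    have hΓ : ‖Γ t * C₀ * star (Γ t) - C₀‖ ≤ 2 * ε := by
      have hg : γ₀ (max 0 (1 - 2 * (t : ℝ))) * C₀ * star (γ₀ (max 0 (1 - 2 * (t : ℝ)))) = C₀ := by
        rw [(hc0' _).eq, mul_assoc, Unitary.mul_star_self_of_mem (hγ₀u _), mul_one]
      show ‖γ₀ _ * T t * C₀ * star (γ₀ _ * T t) - C₀‖ ≤ _
      rw [show γ₀ (max 0 (1 - 2 * (t : ℝ))) * T t * C₀ *
        star (γ₀ (max 0 (1 - 2 * (t : ℝ))) * T t) = γ₀ (max 0 (1 - 2 * (t : ℝ))) *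
          (T t * C₀ * star (T t)) * star (γ₀ (max 0 (1 - 2 * (t : ℝ)))) by
          simp only [star_mul, mul_assoc]]
      nth_rewrite 2 [← hg]
      rwa [norm_conj_sub (hγ₀u _)]
    have hconn : ‖(conn j F : Amb (j + 1)) t - A t * C₀ * star (A t)‖ ≤ ε := by
      rw [hA, coe_conn, Diag.hom_apply, norm_conj_sub (D.unitary t), Diag.core, ← map_sub]
      exact norm_blockHom_le _ ((norm_nonneg _).trans (h F hF 0)) fun i => h F hF _
    have hpush : ‖(A * Γ * star B) t * cst j ((F : Amb j) t) * star ((A * Γ * star B) t) -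
        A t * (Γ t * C₀ * star (Γ t)) * star (A t)‖ ≤ ε := by
      show ‖A t * Γ t * star (B t) * cst j ((F : Amb j) t) * star (A t * Γ t * star (B t)) - _‖ ≤ _
      rw [show A t * Γ t * star (B t) * cst j ((F : Amb j) t) * star (A t * Γ t * star (B t)) =
        A t * (Γ t * (star (B t) * cst j ((F : Amb j) t) * B t) * star (Γ t)) * star (A t) by
          simp only [star_mul, star_star, mul_assoc], norm_conj_sub (hAu t),
        norm_conj_sub (hΓu t)]
      have hBC : C₀ = star (B t) * cst j (v t * (F : Amb j) 0 * star (v t)) * B t := by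
        show _ = star (cst j (v t)) * _ * cst j (v t)
        rw [← map_star, ← map_mul, ← map_mul, hC₀]
        simp only [mul_assoc, Unitary.star_mul_self_of_mem (hv t), mul_one]
        rw [← mul_assoc, Unitary.star_mul_self_of_mem (hv t), one_mul]
      have := norm_conj_sub (Unitary.star_mem (hBu t)) (cst j ((F : Amb j) t))
        (cst j (v t * (F : Amb j) 0 * star (v t)))
      rw [star_star] at this
      rw [hBC, this, ← map_sub]
      exact (norm_cst_le j _).trans (h F hF t)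
    have hmid := norm_conj_sub (hAu t) (Γ t * C₀ * star (Γ t)) C₀
    calc ‖(conn j F : Amb (j + 1)) t -
          (A * Γ * star B) t * cst j ((F : Amb j) t) * star ((A * Γ * star B) t)‖
        ≤ ‖(conn j F : Amb (j + 1)) t - A t * C₀ * star (A t)‖ +
          ‖A t * (Γ t * C₀ * star (Γ t)) * star (A t) - A t * C₀ * star (A t)‖ +
          ‖(A * Γ * star B) t * cst j ((F : Amb j) t) * star ((A * Γ * star B) t) -
            A t * (Γ t * C₀ * star (Γ t)) * star (A t)‖ := by
          refine (norm_sub_le_norm_sub_add_norm_sub _ (A t * C₀ * star (A t)) _).trans ?_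
          rw [add_assoc]
          refine add_le_add le_rfl ((norm_sub_le_norm_sub_add_norm_sub _
            (A t * (Γ t * C₀ * star (Γ t)) * star (A t)) _).trans_eq ?_)
          rw [norm_sub_rev, norm_sub_rev ((A * Γ * star B) t * _ * _)]
      _ ≤ 4 * ε := by rw [hmid]; linarith

end Vale.Agent.P095.Uni.FromZ
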